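import Vale.Agent.P302.Check

namespace Vale.Agent.Results.P302.Gap101over84

open Vale.Agent.P302

/-- Integer item sizes (bin capacity `cap`). -/
def items : List ℕ := [11466, 11463, 11458, 7488, 7008, 6784, 6752, 6528, 5344, 5184, 5056, 4544, 4448, 4384, 4320, 4192, 2048, 2048, 2047, 2045, 2044, 2043, 2040]

/-- Integer bin capacity. -/
def cap : ℕ := 15552

/-- An explicit fractional solution: pairs (numerator of the weight, configuration), common denominator `84`. -/
def pats : List (ℕ × List ℕ) := [(42, [4384, 4384, 6784]), (42, [2048, 6752, 6752]), (42, [5056, 5056, 5344]), (75, [4192, 4320, 7008]), (9, [2048, 2048, 4448, 7008]), (24, [2048, 6528, 6784]), (28, [5184, 5184, 5184]), (9, [4192, 4544, 6784]), (15, [4544, 5344, 5344]), (9, [4320, 4448, 6784]), (60, [4448, 4544, 6528]), (6, [4448, 5344, 5344]), (42, [7488, 7488]), (42, [11458, 2047, 2047]), (42, [11458, 2048, 2045]), (42, [11463, 2040, 2048]), (42, [11463, 2044, 2044]), (42, [11466, 2040, 2045]), (42, [11466, 2043, 2043])]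

theorem no_packing : bfs cap 8 [items] = false := by decide +kernel

theorem sizes_ok : ∀ x ∈ items, 0 < x ∧ x ≤ cap := by decide +kernel

theorem pats_ok : ∀ p ∈ pats, p.2.sum ≤ cap ∧ ∀ x ∈ p.2, x ∈ items := by decide +kernel

theorem cover_ok : ∀ x ∈ items, 84 * items.count x ≤ (pats.map (fun p => p.2.count x * p.1)).sum := by
  decide +kernel

theorem pats_total : (pats.map Prod.fst).sum = 655 := by decide +kernel

theorem result : ∃ (n : ℕ) (a : Fin n → ℚ), (∀ i, 0 < a i ∧ a i ≤ 1) ∧
    (opt a : ℝ) - lpVal a ≥ 101 / 84 := by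
  have hcap : 0 < cap := by decide
  refine ⟨items.length, inst items cap, ?_, ?_⟩
  · intro i
    have h := sizes_ok (items.get i) (List.get_mem items i)
    have hq : (0 : ℚ) < (cap : ℚ) := by exact_mod_cast hcap
    constructor
    · have h1 : (0 : ℚ) < (items.get i : ℚ) := by exact_mod_cast h.1
      exact div_pos h1 hq
    · have h2 : (items.get i : ℚ) ≤ (cap : ℚ) := by exact_mod_cast h.2
      exact (div_le_one hq).2 h2
  · have h1 : 8 + 1 ≤ opt (inst items cap) :=
      opt_ge items cap hcap 8 no_packing (fun x hx => (sizes_ok x hx).2)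
    have h2 := lpVal_le items cap hcap pats 84 (by norm_num) pats_ok cover_ok
    rw [pats_total] at h2
    have h3 : ((8 + 1 : ℕ) : ℝ) ≤ (opt (inst items cap) : ℝ) := by exact_mod_cast h1
    push_cast at h2 h3
    have h4 : ((655 : ℝ) / 84) = 8 + 1 - 101 / 84 := by norm_num
    linarith

end Vale.Agent.Results.P302.Gap101over84
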