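import Vale.Agent.P302.Check

namespace Vale.Agent.Results.P302.Gap29over24

open Vale.Agent.P302

/-- Integer item sizes (bin capacity `cap`). -/
def items : List ℕ := [10410, 10407, 10402, 6560, 6240, 6176, 5760, 5088, 4992, 4768, 4736, 4608, 4320, 4256, 4128, 4032, 1952, 1952, 1951, 1949, 1948, 1947, 1944]

/-- Integer bin capacity. -/
def cap : ℕ := 14304

/-- An explicit fractional solution: pairs (numerator of the weight, configuration), common denominator `24`. -/
def pats : List (ℕ × List ℕ) := [(12, [4256, 4256, 5760]), (12, [1952, 6176, 6176]), (12, [4128, 4320, 5760]), (12, [4032, 4032, 6240]), (6, [4128, 5088, 5088]), (12, [4608, 4608, 5088]), (8, [4736, 4736, 4736]), (8, [4768, 4768, 4768]), (6, [1952, 1952, 4128, 6240]), (9, [6560, 6560]), (12, [4320, 4992, 4992]), (6, [6240, 6560]), (12, [10402, 1951, 1951]), (12, [10402, 1952, 1949]), (12, [10407, 1944, 1952]), (12, [10407, 1948, 1948]), (12, [10410, 1944, 1949]), (12, [10410, 1947, 1947])]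

theorem no_packing : bfs cap 8 [items] = false := by decide +kernel

theorem sizes_ok : ∀ x ∈ items, 0 < x ∧ x ≤ cap := by decide +kernel

theorem pats_ok : ∀ p ∈ pats, p.2.sum ≤ cap ∧ ∀ x ∈ p.2, x ∈ items := by decide +kernel

theorem cover_ok : ∀ x ∈ items, 24 * items.count x ≤ (pats.map (fun p => p.2.count x * p.1)).sum := by
  decide +kernel

theorem pats_total : (pats.map Prod.fst).sum = 187 := by decide +kernel

theorem result : ∃ (n : ℕ) (a : Fin n → ℚ), (∀ i, 0 < a i ∧ a i ≤ 1) ∧
    (opt a : ℝ) - lpVal a ≥ 29 / 24 := by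
  have hcap : 0 < cap := by decide
  refine ⟨items.length, inst items cap, ?_, ?_⟩
  · intro i
    have h := sizes_ok (items.get i) (List.get_mem items i)
    have hq : (0 : ℚ) < (cap : ℚ) := by exact_mod_cast hcap
    constructor
    · have h1 : (0 : ℚ) < (items.get i : ℚ) := by exact_mod_cast h.1
      exact div_pos h1 hq
    · have h2 : (items.get i : ℚ) ≤ (cap : ℚ) := by exact_mod_cast h.2
      exact (div_le_one hq).2 h2
  · have h1 : 8 + 1 ≤ opt (inst items cap) :=
      opt_ge items cap hcap 8 no_packing (fun x hx => (sizes_ok x hx).2)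
    have h2 := lpVal_le items cap hcap pats 24 (by norm_num) pats_ok cover_ok
    rw [pats_total] at h2
    have h3 : ((8 + 1 : ℕ) : ℝ) ≤ (opt (inst items cap) : ℝ) := by exact_mod_cast h1
    push_cast at h2 h3
    have h4 : ((187 : ℝ) / 24) = 8 + 1 - 29 / 24 := by norm_num
    linarith

end Vale.Agent.Results.P302.Gap29over24
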