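import Vale.Agent.P302.Compose

namespace Vale.Agent.Results.P302.Gap529over432

open Vale.Agent.P302

/-- The carriers (each fills more than half a bin). -/
def car : List ℕ := [20836, 20832, 20830, 20825, 20810, 20806]

/-- The small items. -/
def sm : List ℕ := [3904, 3903, 3902, 3901, 3900, 3898, 3891, 3891, 3889, 3888, 3886, 3881]

/-- The big items. -/
def big : List ℕ := [13120, 12480, 12352, 11520, 10176, 9984, 9536, 9472, 9216, 8640, 8512, 8256, 8064]

/-- Integer item sizes (bin capacity `cap`). -/
def items : List ℕ := car ++ (sm ++ big)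

/-- Integer bin capacity. -/
def cap : ℕ := 28608

/-- An explicit fractional solution: pairs (numerator of the weight, configuration), common denominator `432`. -/
def pats : List (ℕ × List ℕ) := [(84, [20836, 3881, 3891]), (264, [20836, 3903]), (84, [20836, 3904]), (72, [20832, 3881, 3891]), (144, [20832, 3886, 3889]), (216, [20832, 3888, 3888]), (288, [20830, 3886, 3891]), (144, [20830, 3889, 3889]), (276, [20825, 3881, 3902]), (156, [20825, 3891, 3891]), (108, [20810, 3891, 3903]), (324, [20810, 3898, 3900]), (48, [20806, 3898, 3902]), (60, [20806, 3898, 3903]), (108, [20806, 3900, 3902]), (216, [20806, 3901, 3901]), (216, [8512, 8512, 11520]), (216, [12352, 12352, 3904]), (216, [8256, 8640, 11520]), (216, [8064, 8064, 12480]), (150, [12480, 13120]), (132, [9216, 9216, 10176]), (144, [9472, 9472, 9472]), (32, [9536, 9536, 9536]), (66, [8256, 12480, 3904, 3904]), (150, [8256, 10176, 10176]), (141, [13120, 13120]), (216, [8640, 9984, 9984]), (168, [9216, 9536, 9536])]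

theorem gad_ok : ∀ j ∈ List.range (sm.length + 1), 10 < j →
    ∀ T ∈ sm.sublistsLen j, bfs cap car.length [car ++ T] = false := by
  decide +kernel

theorem e0_ok : ∀ j ∈ List.range (sm.length + 1), sm.length ≤ 10 + j →
    bfs cap 5 [big ++ List.replicate j 3881] = false := by
  decide +kernel

theorem sm_ok : ∀ x ∈ sm, 3881 ≤ x ∧ x ≤ 3904 := by decide +kernel

theorem car_ok : ∀ x ∈ car, 3904 < x := by decide +kernel

theorem big_ok : ∀ x ∈ big, 3904 < x := by decide +kernel

theorem cc_ok : ∀ c ∈ car, ∀ y ∈ car ++ big, cap < c + y := by decide +kernel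

theorem no_packing : ¬ MPack cap 11 (items : Multiset ℕ) :=
  compose cap 5 10 3904 3881 car sm big sm_ok car_ok big_ok cc_ok gad_ok e0_ok

theorem sizes_ok : ∀ x ∈ items, 0 < x ∧ x ≤ cap := by decide +kernel

theorem pats_ok : ∀ p ∈ pats, p.2.sum ≤ cap ∧ ∀ x ∈ p.2, x ∈ items := by decide +kernel

theorem cover_ok : ∀ x ∈ items, 432 * items.count x ≤ (pats.map (fun p => p.2.count x * p.1)).sum := by
  decide +kernel

theorem pats_total : (pats.map Prod.fst).sum = 4655 := by decide +kernel

theorem result : ∃ (n : ℕ) (a : Fin n → ℚ), (∀ i, 0 < a i ∧ a i ≤ 1) ∧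
    (opt a : ℝ) - lpVal a ≥ 529 / 432 := by
  have hcap : 0 < cap := by decide
  refine ⟨items.length, inst items cap, ?_, ?_⟩
  · intro i
    have h := sizes_ok (items.get i) (List.get_mem items i)
    have hq : (0 : ℚ) < (cap : ℚ) := by exact_mod_cast hcap
    constructor
    · have h1 : (0 : ℚ) < (items.get i : ℚ) := by exact_mod_cast h.1
      exact div_pos h1 hq
    · have h2 : (items.get i : ℚ) ≤ (cap : ℚ) := by exact_mod_cast h.2
      exact (div_le_one hq).2 h2
  · have h1 : 11 + 1 ≤ opt (inst items cap) :=
      opt_ge_of_not_mpack items cap hcap 11 no_packing (fun x hx => (sizes_ok x hx).2)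
    have h2 := lpVal_le items cap hcap pats 432 (by norm_num) pats_ok cover_ok
    rw [pats_total] at h2
    have h3 : ((11 + 1 : ℕ) : ℝ) ≤ (opt (inst items cap) : ℝ) := by exact_mod_cast h1
    push_cast at h2 h3
    have h4 : ((4655 : ℝ) / 432) = 11 + 1 - 529 / 432 := by norm_num
    linarith

end Vale.Agent.Results.P302.Gap529over432
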