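import Vale.Agent.P302.Compose

namespace Vale.Agent.Results.P302.Gap89over72

open Vale.Agent.P302

/-- The carriers (each fills more than half a bin). -/
def car : List ℕ := [62937, 62933, 62928, 62918, 62892, 62888, 62886]

/-- The small items. -/
def sm : List ℕ := [11616, 11615, 11615, 11613, 11612, 11611, 11610, 11609, 11597, 11597, 11591, 11589, 11586, 11578]

/-- The big items. -/
def big : List ℕ := [37632, 37536, 37248, 34560, 30624, 29952, 28608, 28608, 27648, 25920, 25728, 24768, 24192]

/-- Integer item sizes (bin capacity `cap`). -/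
def items : List ℕ := car ++ (sm ++ big)

/-- Integer bin capacity. -/
def cap : ℕ := 86112

/-- An explicit fractional solution: pairs (numerator of the weight, configuration), common denominator `72`. -/
def pats : List (ℕ × List ℕ) := [(32, [62937, 11578, 11597]), (20, [62937, 11615]), (20, [62937, 11616]), (24, [62933, 11586, 11591]), (36, [62933, 11589, 11589]), (12, [62933, 11615]), (48, [62928, 11586, 11597]), (24, [62928, 11591, 11591]), (40, [62918, 11578, 11615]), (32, [62918, 11597, 11597]), (36, [62892, 11609, 11611]), (36, [62892, 11610, 11610]), (36, [62888, 11609, 11615]), (36, [62888, 11612, 11612]), (36, [62886, 11611, 11615]), (36, [62886, 11613, 11613]), (36, [37248, 37248, 11616]), (36, [24768, 25920, 34560]), (4, [24768, 24768, 24768, 11616]), (15, [37536, 37536]), (36, [24192, 24192, 37632]), (48, [28608, 28608, 28608]), (36, [25920, 29952, 29952]), (36, [27648, 27648, 30624]), (36, [25728, 25728, 34560]), (36, [37536, 37632]), (18, [24768, 30624, 30624]), (6, [24768, 37536, 11616, 11616])]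

theorem gad_ok : ∀ j ∈ List.range (sm.length + 1), 12 < j →
    ∀ T ∈ sm.sublistsLen j, bfs cap car.length [car ++ T] = false := by
  decide +kernel

theorem e0_ok : ∀ j ∈ List.range (sm.length + 1), sm.length ≤ 12 + j →
    bfs cap 5 [big ++ List.replicate j 11578] = false := by
  decide +kernel

theorem sm_ok : ∀ x ∈ sm, 11578 ≤ x ∧ x ≤ 11616 := by decide +kernel

theorem car_ok : ∀ x ∈ car, 11616 < x := by decide +kernel

theorem big_ok : ∀ x ∈ big, 11616 < x := by decide +kernel

theorem cc_ok : ∀ c ∈ car, ∀ y ∈ car ++ big, cap < c + y := by decide +kernel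

theorem no_packing : ¬ MPack cap 12 (items : Multiset ℕ) :=
  compose cap 5 12 11616 11578 car sm big sm_ok car_ok big_ok cc_ok gad_ok e0_ok

theorem sizes_ok : ∀ x ∈ items, 0 < x ∧ x ≤ cap := by decide +kernel

theorem pats_ok : ∀ p ∈ pats, p.2.sum ≤ cap ∧ ∀ x ∈ p.2, x ∈ items := by decide +kernel

theorem cover_ok : ∀ x ∈ items, 72 * items.count x ≤ (pats.map (fun p => p.2.count x * p.1)).sum := by
  decide +kernel

theorem pats_total : (pats.map Prod.fst).sum = 847 := by decide +kernel

theorem result : ∃ (n : ℕ) (a : Fin n → ℚ), (∀ i, 0 < a i ∧ a i ≤ 1) ∧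
    (opt a : ℝ) - lpVal a ≥ 89 / 72 := by
  have hcap : 0 < cap := by decide
  refine ⟨items.length, inst items cap, ?_, ?_⟩
  · intro i
    have h := sizes_ok (items.get i) (List.get_mem items i)
    have hq : (0 : ℚ) < (cap : ℚ) := by exact_mod_cast hcap
    constructor
    · have h1 : (0 : ℚ) < (items.get i : ℚ) := by exact_mod_cast h.1
      exact div_pos h1 hq
    · have h2 : (items.get i : ℚ) ≤ (cap : ℚ) := by exact_mod_cast h.2
      exact (div_le_one hq).2 h2
  · have h1 : 12 + 1 ≤ opt (inst items cap) :=
      opt_ge_of_not_mpack items cap hcap 12 no_packing (fun x hx => (sizes_ok x hx).2)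
    have h2 := lpVal_le items cap hcap pats 72 (by norm_num) pats_ok cover_ok
    rw [pats_total] at h2
    have h3 : ((12 + 1 : ℕ) : ℝ) ≤ (opt (inst items cap) : ℝ) := by exact_mod_cast h1
    push_cast at h2 h3
    have h4 : ((847 : ℝ) / 72) = 12 + 1 - 89 / 72 := by norm_num
    linarith

end Vale.Agent.Results.P302.Gap89over72
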